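import Mathlib

/-!
# P112, [G-COMB]: the synchronised cluster tree of a finite set of slopes

`T` finite set of tubes through a point, `s` their slopes.  `C ⊆ T` is `h`-isolated if every
distance from `C` to `T \ C` is larger than `h * diam C`.  `Blk` = maximal isolated subset of
diameter `≤ a` through an index.  Laminarity, locality, and the annuli lemma (arcs seen from the
longest tube give isolated sets of diameter in `[a/G, a]` around every point).
-/

open Finset

namespace Vale.Agent.P112.H71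

noncomputable section

section Defs

variable {ι : Type*}

/-- `C` is an `h`-isolated subset of `T` for the slopes `s`. -/
def Iso (s : ι → ℝ) (h : ℝ) (T C : Finset ι) : Prop :=
  C ⊆ T ∧ ∀ i ∈ C, ∀ j ∈ C, ∀ k ∈ T, k ∉ C → ∀ l ∈ C, h * |s i - s j| < |s k - s l|

/-- The slopes of `C` have diameter at most `a`. -/
def Sm (s : ι → ℝ) (a : ℝ) (C : Finset ι) : Prop := ∀ i ∈ C, ∀ j ∈ C, |s i - s j| ≤ a

open scoped Classical in
/-- Block of `i`: the union of the isolated subsets of `T` of diameter `≤ a` containing `i`. -/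
def Blk (s : ι → ℝ) (h a : ℝ) (T : Finset ι) (i : ι) : Finset ι :=
  T.filter fun j => ∃ C, Iso s h T C ∧ Sm s a C ∧ i ∈ C ∧ j ∈ C

end Defs

section Basic

variable {ι : Type*} {s : ι → ℝ} {h a : ℝ} {T C D : Finset ι} {i j : ι}

theorem Iso.lam (hh : 1 ≤ h) (hC : Iso s h T C) (hD : Iso s h T D) (hi : i ∈ C) (hi' : i ∈ D) :
    C ⊆ D ∨ D ⊆ C := by
  by_contra hcon
  rw [not_or] at hcon
  obtain ⟨h1, h2⟩ := hcon
  obtain ⟨k, hk, hkD⟩ := Finset.not_subset.mp h1
  obtain ⟨l, hl, hlC⟩ := Finset.not_subset.mp h2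
  have e1 := hD.2 i hi' l hl k (hC.1 hk) hkD i hi'
  have e2 := hC.2 i hi k hk l (hD.1 hl) hlC i hi
  have e3 : |s i - s l| ≤ h * |s i - s l| := le_mul_of_one_le_left (abs_nonneg _) hh
  have e4 : |s i - s k| ≤ h * |s i - s k| := le_mul_of_one_le_left (abs_nonneg _) hh
  rw [abs_sub_comm (s k) (s i)] at e1
  rw [abs_sub_comm (s l) (s i)] at e2
  linarith

theorem iso_single (hi : i ∈ T) (hinj : ∀ j ∈ T, j ≠ i → s j ≠ s i) : Iso s h T {i} := by
  refine ⟨by simpa using hi, ?_⟩
  intro x hx y hy k hk hkn l hl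
  rw [mem_singleton] at hx hy hl hkn
  subst hx; subst hy; subst hl
  rw [sub_self, abs_zero, mul_zero]
  exact abs_pos.mpr (sub_ne_zero.mpr (hinj k hk hkn))

theorem sm_single (ha : 0 ≤ a) : Sm s a {i} := by
  intro x hx y hy
  rw [mem_singleton] at hx hy
  subst hx; subst hy
  simpa using ha

/-- The block is itself the largest isolated set of diameter `≤ a` containing `i`. -/
theorem blk_spec (hh : 1 ≤ h) (ha : 0 ≤ a) (hi : i ∈ T)
    (hinj : ∀ j ∈ T, j ≠ i → s j ≠ s i) :
    Iso s h T (Blk s h a T i) ∧ Sm s a (Blk s h a T i) ∧ i ∈ Blk s h a T i ∧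
      ∀ C, Iso s h T C → Sm s a C → i ∈ C → C ⊆ Blk s h a T i := by
  classical
  let S : Finset (Finset ι) := T.powerset.filter fun C => Iso s h T C ∧ Sm s a C ∧ i ∈ C
  have hS : S.Nonempty := ⟨{i}, by
    simp only [S, mem_filter, mem_powerset]
    exact ⟨by simpa using hi, iso_single hi hinj, sm_single ha, mem_singleton_self i⟩⟩
  obtain ⟨M, hM, hMmax⟩ := Finset.exists_max_image S (fun C => C.card) hS
  simp only [S, mem_filter, mem_powerset] at hM
  obtain ⟨hMT, hMi, hMs, hMm⟩ := hM
  have hmax : ∀ C, Iso s h T C → Sm s a C → i ∈ C → C ⊆ M := by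
    intro C hC hCs hCi
    rcases Iso.lam hh hC hMi hCi hMm with h1 | h1
    · exact h1
    · have hCS : C ∈ S := by
        simp only [S, mem_filter, mem_powerset]
        exact ⟨hC.1, hC, hCs, hCi⟩
      have := Finset.eq_of_subset_of_card_le h1 (hMmax C hCS)
      rw [this]
  have hB : Blk s h a T i = M := by
    ext j
    simp only [Blk, mem_filter]
    constructor
    · rintro ⟨_, C, hC, hCs, hCi, hCj⟩
      exact hmax C hC hCs hCi hCj
    · intro hj
      exact ⟨hMT hj, M, hMi, hMs, hMm, hj⟩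
  rw [hB]
  exact ⟨hMi, hMs, hMm, hmax⟩

theorem blk_subset : Blk s h a T i ⊆ T := by
  classical
  unfold Blk
  exact filter_subset _ _

theorem blk_eq_of_mem (hh : 1 ≤ h) (ha : 0 ≤ a)
    (hinj : ∀ i ∈ T, ∀ j ∈ T, j ≠ i → s j ≠ s i) (hi : i ∈ T) (hj : j ∈ Blk s h a T i) :
    Blk s h a T j = Blk s h a T i := by
  have hjT : j ∈ T := blk_subset hj
  obtain ⟨a1, a2, a3, a4⟩ := blk_spec (a := a) hh ha hi (hinj i hi)
  obtain ⟨b1, b2, b3, b4⟩ := blk_spec (a := a) hh ha hjT (hinj j hjT)
  have h1 : Blk s h a T i ⊆ Blk s h a T j := b4 _ a1 a2 hj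
  have h2 : Blk s h a T j ⊆ Blk s h a T i := a4 _ b1 b2 (h1 a3)
  exact Subset.antisymm h2 h1

/-- Locality of isolation. -/
theorem iso_loc {T' : Finset ι} (hh : 0 ≤ h) (hi : i ∈ C) (hs : Sm s a C)
    (hag : ∀ k, |s k - s i| ≤ (h + 1) * a → (k ∈ T ↔ k ∈ T')) (hC : Iso s h T C) :
    Iso s h T' C := by
  have ha : 0 ≤ a := (abs_nonneg _).trans (hs i hi i hi)
  refine ⟨fun x hx => ?_, ?_⟩
  · have h1 := hs x hx i hi
    exact (hag x (h1.trans (by nlinarith))).mp (hC.1 hx)
  · intro x hx y hy k hk hkC l hl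
    by_contra hcon
    rw [not_lt] at hcon
    have h1 : |s k - s l| ≤ h * a :=
      hcon.trans (mul_le_mul_of_nonneg_left (hs x hx y hy) hh)
    have h2 : |s k - s i| ≤ (h + 1) * a := by
      have := abs_sub_le (s k) (s l) (s i)
      have h3 := hs l hl i hi
      linarith
    have h3 := hC.2 x hx y hy k ((hag k h2).mpr hk) hkC l hl
    exact absurd h3 (not_lt.mpr hcon)

/-- Locality of blocks. -/
theorem blk_loc {T' : Finset ι} (hh : 0 ≤ h)
    (hag : ∀ k, |s k - s i| ≤ (h + 1) * a → (k ∈ T ↔ k ∈ T')) :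
    Blk s h a T i = Blk s h a T' i := by
  classical
  ext j
  simp only [Blk, mem_filter]
  constructor
  · rintro ⟨_, C, hC, hCs, hCi, hCj⟩
    have hC' := iso_loc hh hCi hCs hag hC
    exact ⟨hC'.1 hCj, C, hC', hCs, hCi, hCj⟩
  · rintro ⟨_, C, hC, hCs, hCi, hCj⟩
    have hC' := iso_loc hh hCi hCs (fun k hk => (hag k hk).symm) hC
    exact ⟨hC'.1 hCj, C, hC', hCs, hCi, hCj⟩

end Basic

/-! ### The annuli lemma -/

section Annuli

variable {ι : Type*} {s L : ι → ℝ} {h a G η : ℝ} {T : Finset ι} {i0 : ι} {m : ℕ}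

/-- If the longest tube of every subset sees the shorter ones at distance `≥ a/G` in at most `m`
relative arcs, then around every point there is an isolated set of diameter `≤ a` containing the
ball of radius `a/G`. -/
theorem exists_iso (hh : 1 ≤ h) (ha : 0 < a) (hG : 2 * (3 * h) ^ (2 * m + 6) ≤ G)
    (hη0 : 0 ≤ η) (hη : 4 * η * G ≤ 1)
    (harc : ∀ i ∈ T, ∃ P : Finset ℝ, P.card ≤ m ∧ ∀ j ∈ T, L j ≤ L i → a / G ≤ |s j - s i| →
      ∃ c ∈ P, |s j - c| ≤ η * |c - s i|) :
    ∃ C, Iso s h T C ∧ Sm s a C ∧ ∀ j ∈ T, |s j - s i0| ≤ a / G → j ∈ C := by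
  classical
  set n := 2 * m + 6 with hn
  have h3 : (1 : ℝ) ≤ 3 * h := by linarith
  have hpow : (1 : ℝ) ≤ (3 * h) ^ n := one_le_pow₀ h3
  have hG0 : 0 < G := by linarith
  have hG1 : 1 ≤ G := by linarith
  let r : ℕ → ℝ := fun t => (a / G) * (3 * h) ^ t
  have hr0 : ∀ t, 0 < r t := fun t => by positivity
  have hrs : ∀ t, r (t + 1) = 3 * h * r t := fun t => by simp only [r, pow_succ]; ring
  have hrmono : ∀ {t u}, t ≤ u → r t ≤ r u := fun {t u} htu =>
    mul_le_mul_of_nonneg_left (pow_le_pow_right₀ h3 htu) (by positivity)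
  have hra : ∀ t, a / G ≤ r t := fun t => by
    have : (1 : ℝ) ≤ (3 * h) ^ t := one_le_pow₀ h3
    simpa [r] using mul_le_mul_of_nonneg_left this (by positivity : 0 ≤ a / G)
  have hrn : 2 * r n ≤ a := by
    have h1 : a / G * (2 * (3 * h) ^ n) ≤ a / G * G :=
      mul_le_mul_of_nonneg_left hG (by positivity)
    have h2 : a / G * G = a := by field_simp
    simp only [r]
    nlinarith
  by_cases H : ∃ t < n, ∀ j ∈ T, |s j - s i0| ≤ r (t + 1) → |s j - s i0| ≤ r t
  · obtain ⟨t, ht, htT⟩ := H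
    refine ⟨T.filter fun j => |s j - s i0| ≤ r t, ⟨filter_subset _ _, ?_⟩, ?_, ?_⟩
    · intro x hx y hy k hk hkC l hl
      simp only [mem_filter] at hx hy hl
      have hk1 : r (t + 1) < |s k - s i0| := by
        by_contra hcon
        rw [not_lt] at hcon
        exact hkC (mem_filter.mpr ⟨hk, htT k hk hcon⟩)
      have e1 : |s x - s y| ≤ 2 * r t := by
        have := abs_sub_le (s x) (s i0) (s y)
        rw [abs_sub_comm (s i0) (s y)] at this
        linarith [hx.2, hy.2]
      have e2 : |s k - s i0| ≤ |s k - s l| + |s l - s i0| := abs_sub_le _ _ _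
      have e3 := hrs t
      have e4 : h * |s x - s y| ≤ h * (2 * r t) := mul_le_mul_of_nonneg_left e1 (by linarith)
      have e5 : r t ≤ h * r t := le_mul_of_one_le_left (hr0 t).le hh
      nlinarith [hl.2]
    · intro x hx y hy
      simp only [mem_filter] at hx hy
      have := abs_sub_le (s x) (s i0) (s y)
      rw [abs_sub_comm (s i0) (s y)] at this
      have := hrmono ht.le
      linarith [hx.2, hy.2]
    · intro j hj hja
      exact mem_filter.mpr ⟨hj, hja.trans (hra t)⟩
  · exfalso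
    push Not at H
    have : Nonempty ι := ⟨i0⟩
    choose! p hpT hp1 hp2 using H
    have hne : ((range n).image p).Nonempty := by
      rw [image_nonempty, nonempty_range_iff]
      omega
    obtain ⟨x, hx, hxmax⟩ := Finset.exists_max_image ((range n).image p) L hne
    rw [mem_image] at hx
    obtain ⟨t0, ht0, rfl⟩ := hx
    rw [mem_range] at ht0
    obtain ⟨P, hPm, hP⟩ := harc (p t0) (hpT t0 ht0)
    -- distances between points of non-neighbouring annuli
    have hdist : ∀ t u, t + 2 ≤ u → u < n → 2 * (a / G) ≤ |s (p t) - s (p u)| := by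
      intro t u htu hu
      have ht : t < n := by omega
      have e1 := hp1 t ht
      have e2 := hp2 u hu
      have e3 : r (t + 2) ≤ r u := hrmono htu
      have e4 : r (t + 2) = 3 * h * r (t + 1) := hrs (t + 1)
      have e5 : r (t + 1) ≤ h * r (t + 1) := le_mul_of_one_le_left (hr0 _).le hh
      have e6 := hra (t + 1)
      have e7 : |s (p u) - s i0| ≤ |s (p t) - s (p u)| + |s (p t) - s i0| := by
        have := abs_sub_le (s (p u)) (s (p t)) (s i0)
        rwa [abs_sub_comm (s (p u)) (s (p t))] at this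
      nlinarith
    let E : Finset ℕ := (range (m + 3)).filter fun u => 2 * u + 2 ≤ t0 ∨ t0 + 2 ≤ 2 * u
    have hE : m < E.card := by
      have hsub : range (m + 3) ⊆ E ∪ {t0 / 2, (t0 + 1) / 2} := by
        intro u hu
        simp only [E, mem_union, mem_filter, mem_insert, mem_singleton]
        by_cases h1 : 2 * u + 2 ≤ t0 ∨ t0 + 2 ≤ 2 * u
        · exact Or.inl ⟨hu, h1⟩
        · right; omega
      have h1 := card_le_card hsub
      have h2 := card_union_le E {t0 / 2, (t0 + 1) / 2}
      have h4 : ({t0 / 2, (t0 + 1) / 2} : Finset ℕ).card ≤ 2 := card_le_two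
      rw [card_range] at h1
      omega
    have hcase : ∀ u ∈ E, 2 * u < n ∧ a / G ≤ |s (p (2 * u)) - s (p t0)| := by
      intro u hu
      simp only [E, mem_filter, mem_range] at hu
      refine ⟨by omega, ?_⟩
      have hpos : 0 < a / G := by positivity
      rcases hu.2 with h1 | h1
      · have := hdist (2 * u) t0 h1 ht0
        linarith
      · have := hdist t0 (2 * u) h1 (by omega)
        rw [abs_sub_comm] at this
        linarith
    have hex : ∀ u ∈ E, ∃ c ∈ P, |s (p (2 * u)) - c| ≤ η * |c - s (p t0)| := by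
      intro u hu
      obtain ⟨h1, h2⟩ := hcase u hu
      exact hP _ (hpT _ h1) (hxmax _ (mem_image_of_mem p (mem_range.mpr h1))) h2
    choose! c hcP hc using hex
    obtain ⟨u, hu, v, hv, huv, hcuv⟩ :=
      Finset.exists_ne_map_eq_of_card_lt_of_maps_to (lt_of_le_of_lt hPm hE) hcP
    have key : ∀ u ∈ E, ∀ v ∈ E, u < v → c u = c v → False := by
      intro u hu v hv huv hcuv
      obtain ⟨hu1, hu2⟩ := hcase u hu
      obtain ⟨hv1, hv2⟩ := hcase v hv
      have e1 := hc u hu
      have e2 := hc v hv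
      rw [← hcuv] at e2
      have e3 := hdist (2 * u) (2 * v) (by omega) hv1
      have e4 : |s (p (2 * u)) - s (p (2 * v))| ≤
          |s (p (2 * u)) - c u| + |s (p (2 * v)) - c u| := by
        have := abs_sub_le (s (p (2 * u))) (c u) (s (p (2 * v)))
        rwa [abs_sub_comm (c u) (s (p (2 * v)))] at this
      have e5 : |c u - s (p t0)| ≤ |s (p (2 * u)) - c u| + |s (p (2 * u)) - s (p t0)| := by
        have := abs_sub_le (c u) (s (p (2 * u))) (s (p t0))
        rwa [abs_sub_comm (c u) (s (p (2 * u)))] at this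
      have e6 : |s (p (2 * u)) - s (p t0)| ≤ a := by
        have g1 := abs_sub_le (s (p (2 * u))) (s i0) (s (p t0))
        rw [abs_sub_comm (s i0) (s (p t0))] at g1
        have g2 := (hp1 (2 * u) hu1).trans (hrmono (show 2 * u + 1 ≤ n by omega))
        have g3 := (hp1 t0 ht0).trans (hrmono (show t0 + 1 ≤ n by omega))
        linarith
      have hη1 : 4 * η ≤ 1 := by nlinarith
      have e7 : |c u - s (p t0)| ≤ 4 / 3 * a := by
        nlinarith [abs_nonneg (c u - s (p t0))]
      have e8 : 2 * (a / G) ≤ 2 * (η * (4 / 3 * a)) := by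
        have := mul_le_mul_of_nonneg_left e7 hη0
        linarith
      have e9 : a / G * G = a := by field_simp
      have e10 : 2 * (a / G) * G ≤ 2 * (η * (4 / 3 * a)) * G :=
        mul_le_mul_of_nonneg_right e8 hG0.le
      nlinarith
    rcases lt_or_gt_of_ne huv with h1 | h1
    · exact key u hu v hv h1 hcuv
    · exact key v hv u hu h1 hcuv.symm

end Annuli

end

end Vale.Agent.P112.H71
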